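import Vale.Agent.P352R.Wl.No0
import Vale.Agent.P352W.Fk.Pw
import Vale.Agent.P352W.Fk.Mec
import Vale.Agent.P352W.Fk.Cont

/-!
# P352R: Wick ordered products of the free field are local polynomials (helper71)
-/

set_option autoImplicit false
set_option linter.all false

open MeasureTheory
open scoped Classical ComplexConjugate Nat

noncomputable section

namespace Vale.Agent.P352R.No

open Vale.Agent.P352.GF Vale.Agent.P352W Vale.Agent.P352W.Cn Vale.Agent.P352W.Ms
open Vale.Agent.P352W.Fk Kt Pw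
open Vale.Agent.P352.H246 (In Al)

/-- product vectors -/
def pr : List Fn → Wf
  | [] => vc
  | g :: l => dv fun p => (ci p * ft g p) • pr l

variable {u v : V → ℂ} {ψ : Wf}

theorem cr_dv (u : V → ℂ) (ψ : Wf) : cr u ψ = dv fun p => u p • ψ := by rw [dv_eq]; rfl

theorem nice_cr (a : Rd rr u) (n : Nice ψ) : Nice (cr u ψ) := by
  rw [cr_dv]
  refine ⟨Bq.m_dv (F := fun (_ : Unit) p => u p • ψ)
    (Bq.m_smul (a.1.comp measurable_snd) (Bq.m_const n.1)), fun N => ?_⟩
  obtain ⟨c, hc⟩ := a.2 (N + 1)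
  obtain ⟨C, hC⟩ := n.2 (N + 1)
  exact ⟨_, bd_cr hc hC⟩

theorem nice_an (a : Rd rr u) (n : Nice ψ) : Nice (an Om u ψ) := by
  refine ⟨Bq.m_it (F := fun (_ : Unit) p => u p • ψ)
    (Bq.m_smul (a.1.comp measurable_snd) (Bq.m_const n.1)), fun N => ?_⟩
  obtain ⟨c, hc⟩ := a.2 0
  obtain ⟨C, hC⟩ := n.2 (N + 0 + 3)
  exact ⟨_, bd_an (u := u) (a := 0) (b := c) (fun q => by simpa using hc q) hC⟩

/-- the good wave functions -/
def Nm : Submodule ℂ Wf where
  carrier := {ψ | Nice ψ}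
  add_mem' := Nice.add
  zero_mem' := nice_zero
  smul_mem' c _ h := Nice.smul c h

/-- creation operators -/
def Cr (a : Rd rr u) : Module.End ℂ Nm where
  toFun ψ := ⟨cr u ψ.1, nice_cr a ψ.2⟩
  map_add' ψ χ := Subtype.ext (funext fun σ => cr_add σ)
  map_smul' c ψ := Subtype.ext (funext fun σ => by
    show dl (fun p τ => u p * (c * ψ.1 τ)) σ = c * dl (fun p τ => u p * ψ.1 τ) σ
    rw [← dl_mul]
    exact dl_congr fun p _ => mul_left_comm _ _ _)

/-- annihilation operators -/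
def An (a : Rd rr u) : Module.End ℂ Nm where
  toFun ψ := ⟨an Om u ψ.1, nice_an a ψ.2⟩
  map_add' ψ χ := Subtype.ext (funext fun σ => an_add (j1 a.pg ψ.2 σ) (j1 a.pg χ.2 σ))
  map_smul' c ψ := Subtype.ext (funext fun σ => by
    show ∫ q, _ ∂Om = c * ∫ q, _ ∂Om
    rw [← integral_const_mul]
    exact integral_congr_ae (.of_forall fun p => mul_left_comm _ _ _))

theorem Cr_Cr (a : Rd rr u) (b : Rd rr v) : Cr a * Cr b = Cr b * Cr a :=
  LinearMap.ext fun ψ => Subtype.ext (funext fun σ => by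
    show cr u (cr v ψ.1) σ = cr v (cr u ψ.1) σ
    rw [cr_cr, cr_cr]
    unfold cc
    rw [dl_comm fun p q τ => u p * v q * ψ.1 τ]
    simp only [mul_comm (u _)])

theorem An_An (a : Rd rr u) (b : Rd rr v) : An a * An b = An b * An a :=
  LinearMap.ext fun ψ => Subtype.ext (funext fun σ => by
    show an Om u (an Om v ψ.1) σ = an Om v (an Om u ψ.1) σ
    rw [an_an, an_an]
    unfold aa
    rw [integral_integral_swap (j2 (Kp.ten a.pg b.pg) ψ.2 σ)]
    simp only [mul_comm (u _), Multiset.cons_swap _ _ σ])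

theorem An_Cr (a : Rd rr u) (b : Rd rr v) :
    An a * Cr b = Cr b * An a + (∫ q, u q * v q ∂Om) • 1 :=
  LinearMap.ext fun ψ => Subtype.ext (funext fun σ => by
    show an Om u (cr v ψ.1) σ = cr v (an Om u ψ.1) σ + (∫ q, u q * v q ∂Om) * ψ.1 σ
    rw [an_cr (j7 a.pg b) (j1 a.pg ψ.2), cr_an, add_comm])

theorem In_bar {O : Set V} {g : Fn} (h : In O g) : In O (bar g) :=
  ⟨Ft.test_bar h.1, by
    have := h.2.1
    rwa [HasCompactSupport, ← Ft.tsupport_bar] at this, Ft.tsupport_bar g ▸ h.2.2⟩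

section

variable {D : Type*} [NormedAddCommGroup D] [InnerProductSpace ℂ D]

/-- `R v ψ`: the wave function `ψ` represents the vector `v`; `B` is the free field -/
structure Rp (Q : Theory D) (B : Fld D) (R : D → Wf → Prop) : Prop where
  fld : Q.fld B
  herm : ∀ f v w, IsTest f → inner ℂ (B f v) w = inner ℂ v (B (bar f) w)
  add : ∀ v w ψ χ, R v ψ → R w χ → R (v + w) (ψ + χ)
  smul : ∀ (c : ℂ) v ψ, R v ψ → R (c • v) (c • ψ)
  ph : ∀ g v ψ, IsTest g → R v ψ → R (B g v) (ph (ft g) ψ)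

/-- **Wick ordering** -/
theorem wick {Q : Theory D} {B : Fld D} {R : D → Wf → Prop} (r : Rp Q B R) {O : Set V} (l : List Fn)
    (h : ∀ g ∈ l, In O g) :
    ∃ X X', Al Q O X X' ∧ ∀ v, R v vc → R (X v) (pr l) ∧ R (X' v) (pr (l.map bar)) := by
  lift l to List {g // In O g} using h
  let C : {g // In O g} → Module.End ℂ Nm := fun g => Cr (rd_ci (Ct.hs_ft g.2.1))
  let N : {g // In O g} → Module.End ℂ Nm := fun g => An (rd_neg (hs_rd (Ct.hs_ft g.2.1)))
  let s : {g // In O g} → {g // In O g} := fun g => ⟨bar g.1, In_bar g.2⟩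
  have e : ∀ g (ψ : Nm), ((C g + N g) ψ).1 = Fk.ph (ft g.1) ψ.1 := fun g ψ => (ph_eq _ _).symm
  have k : ∀ l : List {g // In O g}, (no C N l ⟨vc, nice_vc⟩).1 = pr (l.map (↑)) := fun l => by
    induction l with
    | nil => rfl
    | cons g l ih =>
      have z : N g ⟨vc, nice_vc⟩ = 0 := Subtype.ext (funext fun σ => by
        show ∫ q, _ * vc (q ::ₘ σ) ∂Om = 0
        simp [vc])
      rw [no, LinearMap.add_apply, Module.End.mul_apply, Module.End.mul_apply, z, map_zero, add_zero,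
        List.map_cons, pr, ← ih]
      exact cr_dv _ _
  obtain ⟨X, X', a, b, c⟩ := good (C := C) (N := N) (s := s)
    (c := fun g h => ∫ q, ft g.1 (-q) * (ci q * ft h.1 q) ∂Om) (fun _ _ => Cr_Cr _ _)
    (fun _ _ => An_An _ _) (fun _ _ => An_Cr _ _) (fun g h => by
      rw [Complex.star_def, ← integral_conj]
      refine integral_congr_ae (.of_forall fun q => ?_)
      simp only [s, map_mul, Ft.ft_bar, neg_neg, Fk.conj_ci]
      ring)
    (G := fun Y Y' => ∃ X X', Al Q O X X' ∧ (∀ v (ψ : Nm), R v ψ.1 → R (X v) (Y ψ).1) ∧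
      ∀ v (ψ : Nm), R v ψ.1 → R (X' v) (Y' ψ).1)
    ⟨_, _, .one, fun _ _ h => h, fun _ _ h => h⟩
    (fun _ _ _ _ ⟨X, X', a, b, c⟩ ⟨Y, Y', a', b', c'⟩ => ⟨_, _, .add _ _ _ _ a a',
      fun v ψ h => r.add _ _ _ _ (b v ψ h) (b' v ψ h), fun v ψ h => r.add _ _ _ _ (c v ψ h) (c' v ψ h)⟩)
    (fun z _ _ ⟨X, X', a, b, c⟩ => ⟨_, _, .smul z _ _ a, fun v ψ h => r.smul _ _ _ (b v ψ h),
      fun v ψ h => r.smul _ _ _ (c v ψ h)⟩)
    (fun g _ _ ⟨X, X', a, b, c⟩ => ⟨_, _, .fld B B g.1 _ _ r.fld r.fld r.herm g.2 a,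
      fun v ψ h => by
        rw [Module.End.mul_apply, e]
        exact r.ph _ _ _ g.2.1 (b v ψ h),
      fun v ψ h => c _ _ (by
        rw [e]
        exact r.ph _ _ _ (s g).2.1 h)⟩) l
  refine ⟨X, X', a, fun v hv => ⟨?_, ?_⟩⟩
  · have := b _ ⟨vc, nice_vc⟩ hv
    rwa [k] at this
  · have := c _ ⟨vc, nice_vc⟩ hv
    rw [k, List.map_map] at this
    rw [List.map_map]
    exact this

end

theorem nice_pr {l : List Fn} (h : ∀ g ∈ l, IsTest g) : Nice (pr l) := by
  induction l with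
  | nil => exact nice_vc
  | cons g l ih =>
    rw [pr, ← cr_dv]
    exact nice_cr (rd_ci (Ct.hs_ft (h g List.mem_cons_self)))
      (ih fun g' a => h g' (List.mem_cons_of_mem _ a))

theorem pr_ne (l : List Fn) (σ : Multiset V) (h : Multiset.card σ ≠ l.length) : pr l σ = 0 := by
  induction l generalizing σ with
  | nil => exact if_neg fun e => h (by simp [e])
  | cons g l ih =>
    refine Multiset.sum_eq_zero fun x hx => ?_
    obtain ⟨p, hp, rfl⟩ := Multiset.mem_map.1 hx
    beta_reduce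
    rw [Pi.smul_apply, ih, smul_zero]
    intro e
    rw [← Multiset.cons_erase hp, Multiset.card_cons, e] at h
    exact h rfl

theorem ms_perm {n : ℕ} (x : Fin n → V) (e : Equiv.Perm (Fin n)) : ms (fun i => x (e i)) = ms x :=
  Equiv.sum_comp e fun i => ({x i} : Multiset V)

theorem pr_ms {n : ℕ} (g : Fin n → Fn) (x : Fin n → V) : pr (List.ofFn g) (ms x) =
    ∑ e : Equiv.Perm (Fin n), ∏ i, (ci (x (e i)) * ft (g i) (x (e i))) := by
  induction n with
  | zero => simp [pr, vc, ms]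
  | succ n ih =>
    rw [List.ofFn_succ, pr, Finset.univ_perm_fin_succ, Finset.sum_map, Fintype.sum_prod_type, dv,
      Fk.sum_ms]
    refine Finset.sum_congr rfl fun p _ => ?_
    have : (ms x).erase (x p) = ms fun i : Fin n => x (Equiv.swap 0 p i.succ) := by
      rw [← ms_perm x (Equiv.swap 0 p), Fk.ms_ins 0]
      simp
    rw [this, Pi.smul_apply, ih, smul_eq_mul, Finset.mul_sum]
    refine Finset.sum_congr rfl fun e _ => ?_
    simp [Fin.prod_univ_succ]

/-- **the inner product with a product vector** -/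
theorem ip_pr {n : ℕ} (g : Fin n → Fn) {G : Wf}
    (h : Integrable (fun x => (∏ i, conj (ft (g i) (x i))) * G (ms x)) (Mec.pw n)) :
    Integrable (fun c => conj (pr (List.ofFn g) (mu c)) * G (mu c)) Lam ∧
    ip (pr (List.ofFn g)) G = ∫ x, (∏ i, conj (ft (g i) (x i))) * G (ms x) ∂Mec.pw n := by
  have mp : ∀ e : Equiv.Perm (Fin n), MeasurePreserving
      (MeasurableEquiv.piCongrLeft (fun _ => V) e).symm (Mec.pw n) (Mec.pw n) := fun e =>
    (measurePreserving_piCongrLeft (fun _ => Om) e).symm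
  have ev : ∀ (e : Equiv.Perm (Fin n)) (x : Fin n → V),
      (MeasurableEquiv.piCongrLeft (fun _ => V) e).symm x = fun i => x (e i) := fun _ _ => rfl
  have ae : (fun x => conj (pr (List.ofFn g) (ms x)) * G (ms x)) =ᵐ[Mec.pw n] fun x =>
      ∑ e : Equiv.Perm (Fin n), (∏ i, conj (ft (g i) (x (e i)))) * G (ms fun i => x (e i)) := by
    filter_upwards [(ae_lam _).1 ae_null n] with x hx
    have : ∀ i, ci (x i) = 1 := fun i => if_pos ⟨(hx i).2, (hx i).1⟩
    simp only [pr_ms, this, one_mul, map_sum, map_prod, Finset.sum_mul, ms_perm]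
  have i1 : ∀ e : Equiv.Perm (Fin n), Integrable (fun x : Fin n → V =>
      (∏ i, conj (ft (g i) (x (e i)))) * G (ms fun i => x (e i))) (Mec.pw n) := fun e =>
    (mp e).integrable_comp_of_integrable h
  have z : ∀ m ≠ n, ∀ x : Fin m → V, pr (List.ofFn g) (ms x) = 0 := fun m hm x =>
    pr_ne _ _ (by rwa [Fk.card_ms, List.length_ofFn])
  have i2 : Integrable (fun c => conj (pr (List.ofFn g) (mu c)) * G (mu c)) Lam := by
    refine (int_lam _).2 ⟨fun m => ?_, (hasSum_single n fun m hm => ?_).summable⟩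
    · by_cases hm : m = n
      · subst hm
        exact (integrable_finset_sum _ fun e _ => i1 e).congr ae.symm
      · simp [mu, z m hm]
    · simp [mu, z m hm]
  refine ⟨i2, ?_⟩
  have s := (lam_sum (G := fun σ => conj (pr (List.ofFn g) σ) * G σ) i2).unique
    (hasSum_single n fun m hm => by simp [z m hm])
  have i3 : ∀ e : Equiv.Perm (Fin n), ∫ x : Fin n → V, (∏ i, conj (ft (g i) (x (e i)))) *
      G (ms fun i => x (e i)) ∂Mec.pw n = ∫ x, (∏ i, conj (ft (g i) (x i))) * G (ms x) ∂Mec.pw n :=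
    fun e => (mp e).integral_comp' fun x => (∏ i, conj (ft (g i) (x i))) * G (ms x)
  rw [ip, s, integral_congr_ae ae, integral_finset_sum _ fun e _ => i1 e,
    Finset.sum_congr rfl fun e _ => i3 e]
  rw [Finset.sum_const, Finset.card_univ, Fintype.card_perm, Fintype.card_fin, nsmul_eq_mul,
    inv_mul_cancel_left₀ (Nat.cast_ne_zero.2 (Nat.factorial_ne_zero n))]

end Vale.Agent.P352R.No
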