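import Vale.Agent.P352R.Wl.Wl

/-! # P352R CORE: the classification on Fock space (helper88) -/

set_option linter.all false

open Set MeasureTheory Metric Filter Topology
open scoped ComplexConjugate Classical Nat

namespace Vale.Agent.P352R

open Vale.Agent.P352.GF Vale.Agent.P352W Vale.Agent.P352W.Fk Vale.Agent.P352W.Cn
open Equiv (Perm)

namespace Wl

variable {F : Cf → ℂ} {κ : Wf} {N n : ℕ}

theorem lvl' (i : Integrable (fun x => κ (ms x) * F ⟨n, x⟩) (Mec.pw n)) :
    Integrable (fun c => W n κ vc (mu c) * F c) Lam := by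
  have z : ∀ m, m ≠ n → ∀ x : Fin m → V, W n κ vc (mu ⟨m, x⟩) * F ⟨m, x⟩ = 0 := fun m hm x => by
    simp [mu, W_vc, card_ms, hm]
  refine (int_lam _).2 ⟨fun m => ?_, (hasSum_single n fun m hm => by simp [z m hm]).summable⟩
  by_cases hm : m = n
  · subst hm
    refine (i.const_mul (m ! : ℂ)).congr ?_
    filter_upwards [(ae_all_iff (ι := Fin m)).2 fun i => (Measure.tendsto_eval_ae_ae
      (μ := fun _ : Fin m => Om) (i := i)).eventually ci_ae] with x hx
    simp only [mu, W_vc, card_ms, if_true, prod_ms, hx, Finset.prod_const_one]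
    ring
  · simp only [z m hm]
    exact integrable_zero _ _ _

theorem sm_perm (π : Perm (Fin n)) (x : Fin n → V) : sm n F (x ∘ π) = sm n F x :=
  Equiv.sum_comp (Equiv.mulLeft π) fun ρ : Perm (Fin n) => F ⟨n, x ∘ ρ⟩

theorem sq_sm (m : Measurable F) (i : Integrable (fun c => ‖F c‖ ^ 2 / rr (mu c).sum ^ N) Lam)
    (n : ℕ) : Integrable (fun x => ‖sm n F x‖ ^ 2 / rr (ms x).sum ^ N) (Mec.pw n) := by
  have a : Integrable (fun x : Fin n → V => ‖F ⟨n, x⟩‖ ^ 2 / rr (ms x).sum ^ N) (Mec.pw n) :=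
    (((int_lam _).1 i.ofReal).1 n).re.congr (ae_of_all _ fun x => Complex.ofReal_re _)
  have b := (integrable_finsetSum Finset.univ fun π _ => intg_perm π a).const_mul
    ((Finset.univ : Finset (Perm (Fin n))).card : ℝ)
  have c : Measurable (sm n F) := Finset.measurable_sum _ fun π _ => m.comp ((meas_mk n).comp
    (measurable_pi_lambda _ fun j => measurable_pi_apply _))
  have d : Measurable fun x : Fin n → V => rr (ms x).sum := by
    simp only [sum_eq]
    exact continuous_rr.measurable.comp (Finset.measurable_sum _ fun i _ => measurable_pi_apply i)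
  refine b.mono' ((c.norm.pow_const 2).div (d.pow_const N)).aestronglyMeasurable
    (ae_of_all _ fun x => ?_)
  have r := pow_pos (rr_pos (ms x).sum) N
  simp only [ms_perm]
  rw [Real.norm_of_nonneg (by positivity), ← Finset.sum_div, ← mul_div_assoc]
  exact div_le_div_of_nonneg_right ((pow_le_pow_left₀ (norm_nonneg _) (norm_sum_le _ _) 2).trans
    sq_sum_le_card_mul_sum_sq) r.le

end Wl

open Wl in
/-- **row CORE** -/
theorem core_row (mul : MUL) (many : MANY) (fin : FIN) : CORE := by
  intro Λ hT hW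
  obtain ⟨F, M, m, i, e⟩ := mul Λ hT
  choose P hP using fun n => many (M + 2) n _ _ (wl Λ F M m i e hW n).1 (wl Λ F M m i e hW n).2.1
    (wl Λ F M m i e hW n).2.2
  refine ⟨M + 1, fun n => MvPolynomial.C ((n ! : ℂ)⁻¹ ^ 3) * P n, fun g χ hχ => ?_⟩
  have nz : ∀ n : ℕ, (n ! : ℂ) ≠ 0 := fun n => Nat.cast_ne_zero.2 (Nat.factorial_ne_zero n)
  have I : Integrable (fun c => conj (χ (mu c)) * ft (ev g) (mu c).sum * F c) Lam :=
    (L2.integrable_inner (𝕜 := ℂ) (toL χ) (Λ g)).congr (by
      filter_upwards [toL_ae hχ.memLp, e g] with c a b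
      rw [a, b, RCLike.inner_apply']
      ring)
  have J := fun n => int_sm (u := fun σ => conj (χ σ) * ft (ev g) σ.sum) (((int_lam _).1 I).1 n)
  have S := Mec.lvl_sum (m := Mec.pw) Mec.emb I
  have t : ∀ n, ip χ (W n (kS n (pv (MvPolynomial.C ((n ! : ℂ)⁻¹ ^ 3) * P n)) (ev g)) vc) =
      (n ! : ℂ)⁻¹ * ∫ x, conj (χ (ms x)) * ft (ev g) (ms x).sum * F ⟨n, x⟩ ∂Mec.pw n := fun n => by
    have a : (fun x => (n ! : ℂ)⁻¹ ^ 2 * (conj (χ (ms x)) * ft (ev g) (ms x).sum * sm n F x)) =ᵐ[Mec.pw n]
        fun x => kS n (pv (MvPolynomial.C ((n ! : ℂ)⁻¹ ^ 3) * P n)) (ev g) (ms x) *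
          conj (χ (ms x)) := by
      filter_upwards [ae_all_iff.2 fun π : Perm (Fin n) =>
        (mp_perm π).quasiMeasurePreserving.ae (hP n)] with x hx
      have : ∀ π : Perm (Fin n), pv (MvPolynomial.C ((n ! : ℂ)⁻¹ ^ 3) * P n) (x ∘ π) =
          (n ! : ℂ)⁻¹ ^ 3 * sm n F x := fun π => by
        rw [← sm_perm π, pv, map_mul, MvPolynomial.eval_C]
        exact congrArg _ (hx π).symm
      simp only [kS, sy_ms, this, Finset.sum_const, Finset.card_univ, Fintype.card_perm,
        Fintype.card_fin, nsmul_eq_mul]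
      have := nz n
      field_simp
    have b : Integrable (fun x => conj (χ (ms x)) * ft (ev g) (ms x).sum * sm n F x) (Mec.pw n) := by
      simpa only [sm, Finset.mul_sum, mu, ms_perm] using
        integrable_finsetSum Finset.univ fun π _ => intg_perm π (((int_lam _).1 I).1 n)
    have c := lvl (F := fun c => conj (χ (mu c))) (lvl' ((b.const_mul _).congr a))
    simp only [ip, lam, mul_comm (conj (χ (mu _)))]
    rw [c, ← mul_right_inj' (nz n), ← mul_assoc, mul_inv_cancel₀ (nz n), one_mul]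
    refine (congrArg _ (integral_congr_ae a)).symm.trans ?_
    rw [integral_const_mul, J]
    have := nz n
    field_simp
  have z : ∀ n ∉ Finset.range (M + 1), (n ! : ℂ)⁻¹ *
      ∫ x, conj (χ (ms x)) * ft (ev g) (ms x).sum * F ⟨n, x⟩ ∂Mec.pw n = 0 := fun n hn => by
    have a := fin M n (P n) (by rw [Finset.mem_range] at hn; omega) ((sq_sm m i n).congr
      ((hP n).mono fun x hx => by simp only [hx]))
    have b := J n
    rw [integral_eq_zero_of_ae (by
      filter_upwards [a, hP n] with x h1 h2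
      rw [h2, h1, mul_zero, Pi.zero_apply]), eq_comm, mul_eq_zero] at b
    rw [b.resolve_left (nz n), mul_zero]
  simp only [t]
  rw [L2.inner_def]
  refine Eq.trans (integral_congr_ae ?_) (S.unique (hasSum_sum_of_ne_finset_zero z))
  filter_upwards [toL_ae hχ.memLp, e g] with c a b
  rw [a, b, RCLike.inner_apply']
  ring

end Vale.Agent.P352R
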