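import Vale.Agent.P352R.Ap.Ker
import Vale.Agent.P352W.Fk.Mec

/-! # P352R WL: tempered wave functions and the limit `f → δ` (helper88) -/

set_option linter.all false

open Set MeasureTheory Metric Filter Topology
open scoped ComplexConjugate Classical

namespace Vale.Agent.P352R.Wl

open Vale.Agent.P352.GF Vale.Agent.P352W Vale.Agent.P352W.Fk Vale.Agent.P352W.Cn
open Vale.Agent.P352.H246 (In)
open Vale.Agent.P352.H496 (cc)

variable {F : Cf → ℂ} {ψ χ : Wf} {N : ℕ}

theorem sum_eq {n : ℕ} (x : Fin n → V) : (ms x).sum = ∑ i, x i := by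
  simpa using sum_ms id x

theorem ms_sum {u : V → ℂ} (hu : Measurable u) : Ms fun (_ : Unit) σ => u σ.sum := fun n => by
  simp only [sum_eq]
  exact hu.comp (Finset.measurable_sum _ fun i _ => (measurable_pi_apply i).comp measurable_snd)

theorem mem_two (m : Measurable F) (i : Integrable (fun c => ‖F c‖ ^ 2 / rr (mu c).sum ^ N) Lam) :
    MemLp (fun c => F c / rr (mu c).sum ^ N) 2 Lam := by
  have m' : Measurable fun c => F c / (rr (mu c).sum : ℂ) ^ N := m.div (ms_sum (u := fun p =>
    (rr p : ℂ) ^ N) ((Complex.measurable_ofReal.comp continuous_rr.measurable).pow_const N)).meas1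
  refine (memLp_two_iff_integrable_sq_norm m'.aestronglyMeasurable).2 (i.mono'
    (m'.norm.pow_const 2).aestronglyMeasurable (ae_of_all _ fun c => ?_))
  have r := one_le_pow₀ (n := N) (rr_one (mu c).sum)
  rw [Real.norm_of_nonneg (sq_nonneg _), norm_div, norm_pow, Complex.norm_real,
    Real.norm_of_nonneg (rr_pos _).le, div_pow]
  exact div_le_div_of_nonneg_left (sq_nonneg _) (by positivity) (by nlinarith)

theorem int_mul (hF : MemLp (fun c => F c / rr (mu c).sum ^ N) 2 Lam)
    (m : Ms fun _ : Unit => χ) {C : ℝ} (b : Bd (N + 2) C χ) :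
    Integrable (fun c => χ (mu c) * F c) Lam := by
  have m' : Ms fun (_ : Unit) σ => χ σ * (rr σ.sum : ℂ) ^ N := m.mul (ms_sum (u := fun p =>
    (rr p : ℂ) ^ N) ((Complex.measurable_ofReal.comp continuous_rr.measurable).pow_const N))
  have b' : Bd 2 (2 ^ N * C) fun σ => χ σ * (rr σ.sum : ℂ) ^ N := fun σ => by
    have r := rr_pos σ.sum
    have w := wt_pos σ
    rw [norm_mul, norm_pow, Complex.norm_real, Real.norm_of_nonneg r.le]
    calc _ ≤ ‖χ σ‖ * (2 * wt σ) ^ N * wt σ ^ 2 := by gcongr; exact Ap.rr_sum σ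
      _ = 2 ^ N * (‖χ σ‖ * wt σ ^ (N + 2)) := by ring
      _ ≤ _ := by gcongr; exact b σ
  refine ((b'.memLp m').integrable_mul hF).congr (ae_of_all _ fun c => ?_)
  have : (rr (mu c).sum : ℂ) ^ N ≠ 0 := pow_ne_zero _ (Complex.ofReal_ne_zero.2 (rr_pos _).ne')
  simp only [Pi.mul_apply]
  field_simp

theorem int_nice (hF : MemLp (fun c => F c / rr (mu c).sum ^ N) 2 Lam) (h : Nice χ) :
    Integrable (fun c => χ (mu c) * F c) Lam :=
  (h.2 (N + 2)).elim fun _ b => int_mul hF h.1 b

/-- tempered wave functions are integrable against a power of the weight on every level -/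
theorem int_lvl (hF : MemLp (fun c => F c / rr (mu c).sum ^ N) 2 Lam) (n : ℕ) :
    Integrable (fun x : Fin n → V => F ⟨n, x⟩ / ((wt (ms x) ^ (N + 2) : ℝ) : ℂ)) (Mec.pw n) := by
  have := int_mul (χ := fun σ => ((wt σ : ℂ) ^ (N + 2))⁻¹) (C := 1) hF (fun n => by
    simp only [wt_ms]
    exact ((Complex.measurable_ofReal.comp (Finset.measurable_prod _ fun i _ =>
      continuous_rr.measurable.comp ((measurable_pi_apply i).comp measurable_snd))).pow_const _).inv)
    fun σ => by
      rw [norm_inv, norm_pow, Complex.norm_real, Real.norm_of_nonneg (wt_pos σ).le,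
        inv_mul_cancel₀ (pow_pos (wt_pos σ) _).ne']
  exact (((int_lam _).1 this).1 n).congr (ae_of_all _ fun x => by
    simp only [Complex.ofReal_pow, div_eq_inv_mul]; rfl)

theorem dct {G : Cf → ℂ} (hG : Integrable G Lam) {u : ℕ → Cf → ℂ} (m : ∀ k, Measurable (u k))
    (b : ∀ k c, ‖u k c‖ ≤ 1) (t : ∀ c, Tendsto (fun k => u k c) atTop (𝓝 1)) :
    Tendsto (fun k => ∫ c, G c * u k c ∂Lam) atTop (𝓝 (∫ c, G c ∂Lam)) :=
  tendsto_integral_of_dominated_convergence (fun c => ‖G c‖)
    (fun k => hG.1.mul (m k).aestronglyMeasurable) hG.norm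
    (fun k => ae_of_all _ fun c => by
      rw [norm_mul]; exact mul_le_of_le_one_right (norm_nonneg _) (b k c))
    (ae_of_all _ fun c => by simpa using (t c).const_mul (G c))

/-- **the limit `f → δ`** -/
theorem core (hF : MemLp (fun c => F c / rr (mu c).sum ^ N) 2 Lam) (h : Nice ψ) (h' : Nice χ)
    {r : ℝ} (hr : 0 < r) (H : ∀ f, In (closedBall 0 r) f →
      ∫ c, conj (χ (mu c)) * (F c * ft f (mu c).sum) ∂Lam =
        ∫ c, conj (F c * ft (bar f) (mu c).sum) * ψ (mu c) ∂Lam) :
    ∫ c, conj (χ (mu c)) * F c ∂Lam = ∫ c, conj (F c) * ψ (mu c) ∂Lam := by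
  choose ρ h1 h2 h3 using fun k : ℕ => Ker.bump (r := r / (k + 1)) (by positivity)
  have t : ∀ p, Tendsto (fun k => ft (ρ k) p) atTop (𝓝 1) := fun p => by
    rw [tendsto_iff_norm_sub_tendsto_zero]
    refine squeeze_zero (fun _ => norm_nonneg _) (fun k => (norm_sub_rev _ _).trans_le (h3 k p)) ?_
    simpa using ((tendsto_one_div_add_atTop_nhds_zero_nat (𝕜 := ℝ)).const_mul r).const_mul
      (4 * ‖p‖) |>.congr fun k => by rw [mul_one_div]
  have mf : ∀ k, Measurable (ft (ρ k)) := fun k => (Kr.hs_ft (h1 k).1).1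
  have a := dct (int_nice hF h'.conj) (fun k => (ms_sum (mf k)).meas1) (fun k c => h2 k _)
    fun c => t _
  have i : Integrable (fun c => conj (F c) * ψ (mu c)) Lam :=
    (Complex.conjCLE.integrable_comp_iff.2 (int_nice hF h.conj)).congr
      (ae_of_all _ fun c => by simp [mul_comm])
  have b := dct i (fun k => (ms_sum ((mf k).comp measurable_neg)).meas1) (fun k c => h2 k _)
    fun c => t _
  refine tendsto_nhds_unique a (b.congr fun k => ?_)
  have := H (ρ k) ⟨(h1 k).1, (h1 k).2.1, (h1 k).2.2.trans (closedBall_subset_closedBall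
    (div_le_self hr.le (by linarith [Nat.cast_nonneg (α := ℝ) k])))⟩
  simp only [Kr.ft_bar, map_mul, Complex.conj_conj] at this
  simp only [mul_assoc, this, Function.comp]
  exact integral_congr_ae (ae_of_all _ fun c => by ring)

/-- supports -/
theorem ex_r {g : Fn} (h : In {x | mdot x x < 0} g) :
    ∀ᶠ r in 𝓝[>] (0 : ℝ), ∀ f, In (closedBall 0 r) f → In (cc (tsupport f)) g := by
  have := h.2.1.isCompact.eventually_forall_of_forall_eventually (x₀ := (0 : V))
    (P := fun x y => mdot (x - y) (x - y) < 0) fun y hy =>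
      ContinuousAt.eventually_lt (by unfold mdot; fun_prop) continuousAt_const (by
        have : mdot y y < 0 := h.2.2 hy
        simpa [mdot] using this)
  obtain ⟨δ, δ0, hδ⟩ := Metric.eventually_nhds_iff_ball.1 this
  filter_upwards [Ioo_mem_nhdsGT δ0] with r hr f hf
  exact ⟨h.1, h.2.1, fun y hy x hx => hδ x (closedBall_subset_ball hr.2 (hf.2.2 hx)) y hy⟩

end Vale.Agent.P352R.Wl
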