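import Vale.Agent.P352.GFDefs

/-!
# P352R: normal products in an algebra with canonical commutation relations (helper71)
-/

set_option autoImplicit false
set_option linter.all false

namespace Vale.Agent.P352R.No

variable {A ι : Type*} [Ring A] [Algebra ℂ A] (C N : ι → A)

/-- normal products -/
def no : List ι → A
  | [] => 1
  | g :: l => C g * no l + no l * N g

/-- normal products with one contraction -/
def dn (c : ι → ℂ) : List ι → A
  | [] => 0
  | g :: l => c g • no C N l + (C g * dn c l + dn c l * N g)

variable {C N} {c : ι → ι → ℂ}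

theorem an_no (nn : ∀ g h, N g * N h = N h * N g) (nc : ∀ g h, N g * C h = C h * N g + c g h • 1)
    (h : ι) (l : List ι) : N h * no C N l = no C N l * N h + dn C N (c h) l := by
  induction l with
  | nil => simp [no, dn]
  | cons g l ih =>
    rw [no, dn, mul_add, ← mul_assoc, nc, ← mul_assoc, ih, add_mul, mul_assoc (C g), ih, add_mul,
      add_mul, mul_assoc (no C N l), mul_assoc (no C N l), nn h g, smul_mul_assoc, one_mul, mul_add,
      mul_assoc]
    abel

theorem no_cr (cc : ∀ g h, C g * C h = C h * C g) (nc : ∀ g h, N g * C h = C h * N g + c g h • 1)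
    (h : ι) (l : List ι) : no C N l * C h = C h * no C N l + dn C N (fun g => c g h) l := by
  induction l with
  | nil => simp [no, dn]
  | cons g l ih =>
    rw [no, dn, add_mul, mul_assoc, ih, mul_assoc, nc, mul_add (no C N l), ← mul_assoc (no C N l),
      ih, mul_add, mul_add, add_mul, ← mul_assoc (C g), cc g h, mul_smul_comm, mul_one, mul_assoc,
      mul_assoc]
    abel

variable (C N) in
/-- pairs of linear combinations of normal products of length less than `n` -/
inductive Sp (s : ι → ι) (n : ℕ) : A → A → Prop
  | no (l : List ι) : l.length < n → Sp s n (no C N l) (no C N (l.map s))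
  | zero : Sp s n 0 0
  | add {X X' Y Y'} : Sp s n X X' → Sp s n Y Y' → Sp s n (X + Y) (X' + Y')
  | smul (a : ℂ) {X X'} : Sp s n X X' → Sp s n (a • X) (star a • X')

variable {s : ι → ι}

theorem Sp.up {n : ℕ} {X X' : A} (h : Sp C N s n X X') (g : ι) :
    Sp C N s (n + 1) (C g * X + X * N g) (C (s g) * X' + X' * N (s g)) := by
  induction h with
  | no l hl => exact Sp.no (g :: l) (Nat.succ_lt_succ hl)
  | zero => simpa using Sp.zero
  | add _ _ a b =>
    convert a.add b using 1 <;> noncomm_ring
  | smul a _ b =>
    convert b.smul a using 1 <;> simp only [mul_smul_comm, smul_mul_assoc, smul_add]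

theorem sp_dn {a b : ι → ℂ} (e : ∀ g, b (s g) = star (a g)) (l : List ι) :
    Sp C N s l.length (dn C N a l) (dn C N b (l.map s)) := by
  induction l with
  | nil => exact Sp.zero
  | cons g l ih =>
    rw [List.map_cons, dn, dn, e]
    exact ((Sp.no l (Nat.lt_succ_self _)).smul _).add (ih.up g)

/-- **normal products are polynomials in the fields** -/
theorem good (cc : ∀ g h, C g * C h = C h * C g) (nn : ∀ g h, N g * N h = N h * N g)
    (nc : ∀ g h, N g * C h = C h * N g + c g h • 1) (cs : ∀ g h, c (s g) (s h) = star (c h g))
    {G : A → A → Prop} (one : G 1 1) (add : ∀ X X' Y Y', G X X' → G Y Y' → G (X + Y) (X' + Y'))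
    (smul : ∀ (a : ℂ) X X', G X X' → G (a • X) (star a • X'))
    (fld : ∀ g X X', G X X' → G ((C g + N g) * X) (X' * (C (s g) + N (s g)))) (l : List ι) :
    G (no C N l) (no C N (l.map s)) := by
  suffices H : ∀ n, ∀ l : List ι, l.length = n → G (no C N l) (no C N (l.map s)) from H _ l rfl
  intro n
  refine Nat.strong_induction_on n fun n ih l hn => ?_
  subst hn
  cases l with
  | nil => exact one
  | cons g l =>
    have k : ∀ X X', Sp C N s l.length X X' → G X X' := fun X X' h => by
      induction h with
      | no l' hl => exact ih _ (hl.trans (Nat.lt_succ_self _)) l' rfl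
      | zero => simpa using smul 0 _ _ one
      | add _ _ a b => exact add _ _ _ _ a b
      | smul a _ b => exact smul a _ _ b
    have := add _ _ _ _ (fld g _ _ (ih _ (Nat.lt_succ_self _) l rfl))
      (smul (-1) _ _ (k _ _ (sp_dn (a := c g) (b := fun h => c h (s g)) (fun h => cs h g) l)))
    rw [add_mul, mul_add, an_no nn nc, no_cr cc nc] at this
    convert this using 1
    · rw [no, neg_one_smul]; abel
    · rw [List.map_cons, no, star_neg, star_one, neg_one_smul]; abel

end Vale.Agent.P352R.No
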