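import Vale.Agent.P352R.Wl.Lim
import Vale.Agent.P352R.Df
import Vale.Agent.P352R.W.Lin
import Mathlib.GroupTheory.Perm.Fin

/-! # P352R WL: weak locality in momentum space (helper88) -/

set_option linter.all false

open Set MeasureTheory Metric Filter Topology
open scoped ComplexConjugate Classical Nat

namespace Vale.Agent.P352R.Wl

open Vale.Agent.P352.GF Vale.Agent.P352W Vale.Agent.P352W.Fk Vale.Agent.P352W.Cn
open Vale.Agent.P352.H246 (In)
open Vale.Agent.P352.H496 (cc)
open Equiv (Perm)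

variable {F : Cf → ℂ} {κ : Wf} {N n : ℕ}

theorem ms_perm (x : Fin n → V) (π : Perm (Fin n)) : ms (x ∘ π) = ms x :=
  Equiv.sum_comp π fun i => ({x i} : Multiset V)

theorem sy_ms : ∀ (n : ℕ) (G : (Fin n → V) → ℂ) (x : Fin n → V),
    sy n G (ms x) = ∑ π : Perm (Fin n), G (x ∘ π)
  | 0, G, x => by
    rw [sy, ms_zero, Fintype.sum_unique, Subsingleton.elim (x ∘ _) default]
    simp [vc]
  | n + 1, G, x => by
    rw [sy, dv, sum_ms, ← Equiv.sum_comp Perm.decomposeFin.symm, Fintype.sum_prod_type]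
    refine Finset.sum_congr rfl fun i _ => ?_
    have e : x ∘ Equiv.swap 0 i = Fin.cons (x i) fun j => x (Equiv.swap 0 i j.succ) :=
      funext fun j => Fin.cases (by simp) (fun j => rfl) j
    rw [← ms_perm x (Equiv.swap 0 i), e, ms_cons, Multiset.erase_cons_head, sy_ms n]
    refine Finset.sum_congr rfl fun π _ => congrArg G (funext fun j => ?_)
    exact Fin.cases (by simp) (fun j => by simp) j

theorem sy_mul (c : ℂ) : ∀ (n : ℕ) (G : (Fin n → V) → ℂ), sy n (fun x => c * G x) = c • sy n G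
  | 0, G => by rw [sy, sy, mul_smul]
  | n + 1, G => by
    rw [sy, sy, ← dv_smul]
    simp only [sy_mul c n]

theorem nice_tn : ∀ (n : ℕ) (g : Fin n → Fn), (∀ i, IsTest (g i)) → Nice (tn g)
  | 0, g, _ => nice_vc.smul _
  | n + 1, g, h => by
    have := Ap.nice_cr (Kr.hs_ft (h 0)) (nice_tn n (fun i => g i.succ) fun i => h _)
    simp only [tn, sy, Fin.prod_univ_succ, Fin.cons_zero, Fin.cons_succ, sy_mul]
    exact this

theorem gs_nice (h : Nice κ) : Gs κ := ⟨h.1, 0, fun N => (h.2 N).elim fun C b =>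
  ⟨2 ^ N * C, fun σ => by
    rw [pow_zero, mul_one]
    refine (mul_le_mul_of_nonneg_left (pow_le_pow_left₀ (rr_pos _).le (Ap.rr_sum σ) N)
      (norm_nonneg _)).trans ?_
    rw [mul_pow, mul_left_comm]
    exact mul_le_mul_of_nonneg_left (b σ) (by positivity)⟩⟩

theorem mp_perm (π : Perm (Fin n)) : MeasurePreserving (MeasurableEquiv.arrowCongr' π.symm
    (MeasurableEquiv.refl V)) (Mec.pw n) (Mec.pw n) :=
  measurePreserving_arrowCongr' (fun _ => Om) (fun _ => Om) _ _ fun _ => MeasurePreserving.id _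

theorem int_perm (π : Perm (Fin n)) (G : (Fin n → V) → ℂ) :
    ∫ x, G (x ∘ π) ∂Mec.pw n = ∫ x, G x ∂Mec.pw n := (mp_perm π).integral_comp' G

theorem intg_perm (π : Perm (Fin n)) {E : Type*} [NormedAddCommGroup E] {G : (Fin n → V) → E}
    (h : Integrable G (Mec.pw n)) : Integrable (fun x => G (x ∘ π)) (Mec.pw n) :=
  ((mp_perm π).integrable_comp_emb (MeasurableEquiv.measurableEmbedding _)).2 h

/-- the sum over all orderings -/
noncomputable def sm (n : ℕ) (F : Cf → ℂ) (x : Fin n → V) : ℂ := ∑ π : Perm (Fin n), F ⟨n, x ∘ π⟩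

/-- moving the symmetrisation to the other factor -/
theorem int_sy {G : (Fin n → V) → ℂ}
    (i : ∀ π : Perm (Fin n), Integrable (fun x => G x * F ⟨n, x ∘ π⟩) (Mec.pw n)) :
    ∫ x, sy n G (ms x) * F ⟨n, x⟩ ∂Mec.pw n = ∫ x, G x * sm n F x ∂Mec.pw n := by
  have e : ∀ (π : Perm (Fin n)) (x : Fin n → V), (x ∘ π) ∘ π.symm = x := fun π x =>
    funext fun j => by simp
  have i' : ∀ π : Perm (Fin n), Integrable (fun x => G (x ∘ π) * F ⟨n, x⟩) (Mec.pw n) := fun π => by
    simpa only [e] using intg_perm π (i π.symm)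
  simp only [sy_ms, sm, Finset.sum_mul, Finset.mul_sum]
  rw [integral_finsetSum _ fun π _ => i' π, integral_finsetSum _ fun π _ => i π,
    ← Equiv.sum_comp (Equiv.inv (Perm (Fin n)))]
  refine Finset.sum_congr rfl fun π _ => ?_
  rw [← int_perm π]
  exact congrArg _ (funext fun x => by
    rw [show (x ∘ π) ∘ (Equiv.inv (Perm (Fin n)) π) = x from e π x])

theorem int_sm {u : Wf} (i : Integrable (fun x => u (ms x) * F ⟨n, x⟩) (Mec.pw n)) :
    ∫ x, u (ms x) * sm n F x ∂Mec.pw n = n ! * ∫ x, u (ms x) * F ⟨n, x⟩ ∂Mec.pw n := by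
  have e : ∀ π : Perm (Fin n), (fun x => u (ms x) * F ⟨n, x ∘ π⟩) =
      fun x => u (ms (x ∘ π)) * F ⟨n, x ∘ π⟩ := fun π => by simp only [ms_perm]
  simp only [sm, Finset.mul_sum]
  rw [integral_finsetSum _ fun π _ => e π ▸ intg_perm π i, Finset.sum_congr rfl fun π _ =>
    (congrArg _ (e π)).trans (int_perm π fun x => u (ms x) * F ⟨n, x⟩)]
  simp [Fintype.card_perm]

theorem wi_perm {G : (Fin n → V) → ℂ} (h : Wi N G) (π : Perm (Fin n)) : Wi N fun x => G (x ∘ π) := by
  simpa only [Wi, ms_perm] using intg_perm π h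

theorem wi_sm (h : Wi N fun x : Fin n → V => F ⟨n, x⟩) : Wi N (sm n F) := by
  simpa only [Wi, sm, Finset.sum_div] using
    integrable_finsetSum Finset.univ fun π _ => wi_perm h π

theorem wi_conj {G : (Fin n → V) → ℂ} (h : Wi N G) : Wi N fun x => conj (G x) :=
  (Complex.conjCLE.integrable_comp_iff.2 h).congr (ae_of_all _ fun x => by
    simp only [Complex.conjCLE_apply, map_div₀, Complex.conj_ofReal])

theorem wi_int {G : (Fin n → V) → ℂ} (h : Wi N G) {u : Fin n → V → ℂ} (hu : ∀ i, Hs (u i)) :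
    Integrable (fun x => (∏ i, u i (x i)) * G x) (Mec.pw n) := by
  choose c hc using fun i => (hu i).2 N
  have m : Measurable fun x : Fin n → V => (∏ i, u i (x i)) * ((wt (ms x) ^ N : ℝ) : ℂ) := by
    simp only [wt_ms]
    exact (Finset.measurable_prod _ fun i _ => (hu i).1.comp (measurable_pi_apply i)).mul
      (Complex.measurable_ofReal.comp ((Finset.measurable_prod _ fun i _ =>
        continuous_rr.measurable.comp (measurable_pi_apply i)).pow_const N))
  refine (h.bdd_mul (c := ∏ i, c i) m.aestronglyMeasurable (ae_of_all _ fun x => ?_)).congr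
    (ae_of_all _ fun x => ?_)
  · rw [norm_mul, Complex.norm_real, Real.norm_of_nonneg (pow_pos (wt_pos _) N).le, norm_prod,
      wt_ms, ← Finset.prod_pow, ← Finset.prod_mul_distrib]
    exact Finset.prod_le_prod (fun i _ => mul_nonneg (norm_nonneg _) (pow_pos (rr_pos _) N).le)
      fun i _ => hc i _
  · have : ((wt (ms x) ^ N : ℝ) : ℂ) ≠ 0 := Complex.ofReal_ne_zero.2 (pow_pos (wt_pos _) N).ne'
    simp only
    field_simp

/-- the integral against `W n κ vc` lives on the level `n` -/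
theorem lvl (i : Integrable (fun c => W n κ vc (mu c) * F c) Lam) :
    ∫ c, W n κ vc (mu c) * F c ∂Lam = ∫ x, κ (ms x) * F ⟨n, x⟩ ∂Mec.pw n := by
  have h := Mec.lvl_sum (m := Mec.pw) Mec.emb i
  have h' := hasSum_single (f := fun m => (m ! : ℂ)⁻¹ *
    ∫ x, W n κ vc (mu (Mec.inc m x)) * F (Mec.inc m x) ∂Mec.pw m) n fun m hm => by
      simp [mu, W_vc, card_ms, hm]
  refine (h.unique h').trans ?_
  rw [← integral_const_mul]
  refine integral_congr_ae ?_
  filter_upwards [(ae_all_iff (ι := Fin n)).2 fun i => (Measure.tendsto_eval_ae_ae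
    (μ := fun _ : Fin n => Om) (i := i)).eventually ci_ae] with x hx
  have : (n ! : ℂ) ≠ 0 := Nat.cast_ne_zero.2 (Nat.factorial_ne_zero n)
  simp only [mu, W_vc, card_ms, if_true, prod_ms, hx, Finset.prod_const_one]
  field_simp

theorem conj_W (σ : Multiset V) : conj (W n κ vc σ) = W n (fun τ => conj (κ τ)) vc σ := by
  rw [W_vc, W_vc]
  split_ifs
  · simp only [map_mul, map_natCast, map_multiset_prod, Multiset.map_map, Function.comp, conj_ci]
  · exact map_zero _

/-- **weak locality in momentum space** -/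
theorem wl (Λ : Sch →L[ℂ] Fo) (F : Cf → ℂ) (M : ℕ) (m : Measurable F)
    (i : Integrable (fun c => ‖F c‖ ^ 2 / rr (mu c).sum ^ M) Lam)
    (e : ∀ g, Λ g =ᵐ[Lam] fun c => F c * ft (ev g) (mu c).sum) (h : P352R.Wl Λ) (n : ℕ) :
    Wi (M + 2) (sm n F) ∧ Wi (M + 2) (fun x => conj (sm n F x)) ∧
      ∀ g : Fin n → Fn, (∀ i, In SL (g i)) → ∫ x, (∏ i, ft (g i) (-x i)) * sm n F x ∂Mec.pw n =
        ∫ x, (∏ i, ft (g i) (x i)) * conj (sm n F x) ∂Mec.pw n := by
  have hF := mem_two m i
  have w : Wi (M + 2) fun x : Fin n → V => F ⟨n, x⟩ := int_lvl hF n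
  refine ⟨wi_sm w, wi_conj (wi_sm w), fun g hg => ?_⟩
  obtain ⟨r, hr, r0⟩ := ((eventually_all.2 fun i => ex_r (hg i)).and self_mem_nhdsWithin).exists
  have s := gs_nice (nice_tn n g fun i => (hg i).1)
  have n1 := nice_W n s nice_vc
  have n2 := nice_W n s.st nice_vc
  have k := core hF n1 n2 r0 fun f hf => by
    obtain ⟨f₁, rfl⟩ := hf.1
    obtain ⟨f₂, e₂⟩ := P352X.Ap.test_bar hf.1
    have := h f₁ f₂ n g hf.2.1 e₂ fun i => hr i _ hf
    rw [L2.inner_def, L2.inner_def] at this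
    refine Eq.trans (integral_congr_ae ?_) (this.trans (integral_congr_ae ?_))
    · filter_upwards [toL_ae n2.memLp, e f₁] with c a b
      rw [a, b, RCLike.inner_apply']
    · filter_upwards [toL_ae n1.memLp, e f₂] with c a b
      rw [a, b, RCLike.inner_apply', e₂]
  have i1 := int_nice hF n2.conj
  have i2 : Integrable (fun c => W n (tn g) vc (mu c) * conj (F c)) Lam :=
    (Complex.conjCLE.integrable_comp_iff.2 (int_nice hF n1.conj)).congr
      (ae_of_all _ fun c => by simp)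
  simp only [conj_W, mul_comm (conj (F _))] at k i1
  rw [lvl i1, lvl (F := fun c => conj (F c)) i2] at k
  have hs : ∀ i, Hs (ft (g i)) := fun i => Kr.hs_ft (hg i).1
  have a := int_sy (F := F) (G := fun x => ∏ i, ft (g i) (-x i)) fun π =>
    wi_int (wi_perm w π) (u := fun i p => ft (g i) (-p)) fun i => Kt.rd_neg (hs i)
  have b := int_sy (F := fun c => conj (F c)) (G := fun x => ∏ i, ft (g i) (x i)) fun π =>
    wi_int (wi_perm (wi_conj w) π) hs
  simp only [sm, map_sum] at a b ⊢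
  rw [← a, ← b]
  refine Eq.trans (congrArg _ (funext fun x => ?_)) k
  simp only [st, Complex.conj_conj, ms_map, tn, sy_ms, Function.comp]

end Vale.Agent.P352R.Wl
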